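import Vale.Agent.Lib.P174.Final

open Vale.Agent.Lib.P174

universe u

/-- Closure of the nonsingular-systems property under extensions with residually finite
`p`-group quotient. For a group `G`:

* if `N` is normal in `G`, the quotient `G ⧸ N` is residually a finite `p`-group and every
  system over `N` with full row rank mod `p` is solvable over `N`, then the same holds for `G`;
* if moreover `N` has Howie's property (full row rank over `ℚ` implies solvable), then every
  system over `G` with full row rank mod `p` is solvable over `G`;
* if for infinitely many primes `p` there is such a normal subgroup `N` (depending on `p`) with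
  Howie's property, then `G` itself has Howie's property. -/
theorem Vale.Agent.Results.P174.A_closure.result (G : Type u) [Group G] :
    (∀ (p : ℕ) [Fact p.Prime] (N : Subgroup G) [N.Normal],
      ResiduallyFinitePGroup p (G ⧸ N) →
        (HowieModP p N → HowieModP p G) ∧ (HowieProperty N → HowieModP p G)) ∧
    ({p : ℕ | p.Prime ∧ ∃ (N : Subgroup G) (_ : N.Normal),
        ResiduallyFinitePGroup p (G ⧸ N) ∧ HowieProperty N}.Infinite → HowieProperty G) :=
  ⟨fun p _ N _ hR => ⟨fun hN => howieModP_of_residually p N hR hN,
      fun hN => howieModP_of_residually p N hR (howieModP_of_howie p hN)⟩,
    howie_of_infinite_primes⟩
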